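import Mathlib

open MeasureTheory Real Filter Topology
open scoped ENNReal

namespace Vale.Agent.P105

/-- The fair coin: the uniform probability measure on `Bool`. -/
noncomputable def coin : Measure Bool :=
  (2⁻¹ : ℝ≥0∞) • Measure.dirac true + (2⁻¹ : ℝ≥0∞) • Measure.dirac false

/-- The sign attached to the outcome of a coin toss. -/
noncomputable def sgn (b : Bool) : ℝ := if b then 1 else -1

/-- The Bernoulli convolution with parameter `lam`: the law of the random series
`∑ ε_n lam ^ n`, the signs `ε_n` being independent and fair. -/
noncomputable def bernConv (lam : ℝ) : Measure ℝ :=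
  (Measure.infinitePi (fun _ : ℕ => coin)).map (fun ω => ∑' n : ℕ, sgn (ω n) * lam ^ n)

/-- The `n`-th partial sum `∑_{i < n} ± lam ^ i`, as a function of the signs. -/
noncomputable def psum (lam : ℝ) (n : ℕ) (e : Fin n → Bool) : ℝ := ∑ i, sgn (e i) * lam ^ (i : ℕ)

/-- The probability that the `n`-th partial sum equals `x`. -/
noncomputable def psumProb (lam : ℝ) (n : ℕ) (x : ℝ) : ℝ :=
  ((Finset.univ.filter fun e : Fin n → Bool => psum lam n e = x).card : ℝ) / 2 ^ n

/-- The Shannon entropy (natural logarithm) of the `n`-th partial sum. -/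
noncomputable def psumEntropy (lam : ℝ) (n : ℕ) : ℝ :=
  ∑ x ∈ Finset.univ.image (psum lam n), negMulLog (psumProb lam n x)

/-- The Garsia entropy of `lam`: the limit of `H(X_n) / n`, where `X_n` is the `n`-th partial
sum. (By subadditivity the limit exists, so it is equal to the `liminf`.) -/
noncomputable def garsiaEntropy (lam : ℝ) : ℝ := liminf (fun n : ℕ => psumEntropy lam n / n) atTop

/-- The Mahler measure of an integer polynomial. -/
noncomputable def mahler (P : Polynomial ℤ) : ℝ := (P.map (Int.castRingHom ℂ)).mahlerMeasure

end Vale.Agent.P105
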