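import Vale.Agent.P105.Defs

/-!
# Bernoulli convolutions of Salem numbers of degree four are singular: definitions
-/

open MeasureTheory Real Filter Topology
open scoped ENNReal

namespace Vale.Agent.P105.Salem

/-- A Pisot number: a real algebraic integer `β > 1` all of whose other Galois conjugates have
modulus `< 1`. -/
def IsPisot (β : ℝ) : Prop :=
  1 < β ∧ IsIntegral ℤ β ∧
    ∀ z : ℂ, Polynomial.aeval z (minpoly ℚ β) = 0 → z ≠ (β : ℂ) → ‖z‖ < 1

/-- A Salem number: a real algebraic integer `β > 1` all of whose other Galois conjugates have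
modulus `≤ 1`, at least one of them having modulus `1`. -/
def IsSalem (β : ℝ) : Prop :=
  1 < β ∧ IsIntegral ℤ β ∧
    (∀ z : ℂ, Polynomial.aeval z (minpoly ℚ β) = 0 → z ≠ (β : ℂ) → ‖z‖ ≤ 1) ∧
    ∃ z : ℂ, Polynomial.aeval z (minpoly ℚ β) = 0 ∧ ‖z‖ = 1

/-- Admissible triples: the three archimedean coordinates of an element of `ℤ[β]`. -/
structure Adm (b : ℝ) (ζ : ℂ) (u s : ℝ) (w : ℂ) : Prop where
  int : ∀ m : ℤ, ∃ k : ℤ, b ^ m * u + b ^ (-m) * s + 2 * (ζ ^ m * w).re = k
  iu : IsIntegral ℤ u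
  is : IsIntegral ℤ s

/-- All finite products of the cosines over `m ≤ ρ ^ (-2)` are bounded below by `a`. -/
def Star (b u a ρ : ℝ) : Prop :=
  ∀ F : Finset ℤ, (∀ m ∈ F, (m : ℝ) * ρ ^ 2 ≤ 1) → a ≤ ∏ m ∈ F, |cos (π * (b ^ m * u))|

/-- The absolute value of the tangent at `m`. -/
noncomputable def T (b u : ℝ) (m : ℤ) : ℝ := |tan (π * (b ^ m * u))|

/-- The constant lost in one step. -/
noncomputable def kap (b : ℝ) : ℝ := exp (-(2 * π ^ 2 * (1 / (1 - b⁻¹ ^ 2) + 4))) / 2

/-- The (real) Fourier transform of the Bernoulli convolution. -/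
noncomputable def nuHat (lam t : ℝ) : ℝ := ∫ x, cos (t * x) ∂(bernConv lam)

end Vale.Agent.P105.Salem
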